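import Vale.Agent.Lib.P090.Defs

/-!
Linearisation of Lipschitz self-maps of a pointed metric space on the Lipschitz-free space, and
the passage from maps with finite range to the bounded approximation property.
-/

namespace Vale.Agent.Lib.P090

open scoped NNReal

variable {M : Type*} [MetricSpace M] {o : M}

@[simp] theorem evalAt_apply (x : M) (f : LipZero M o) : evalAt x f = f.1 x := rfl

/-- `F(M)` as a type, only used inside the proofs. -/
def FreeSpace (M : Type*) [MetricSpace M] (o : M) : Type _ := ↥(freeSpace M o)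

noncomputable instance : NormedAddCommGroup (FreeSpace M o) :=
  inferInstanceAs (NormedAddCommGroup ↥(freeSpace M o))

noncomputable instance : NormedSpace ℝ (FreeSpace M o) :=
  inferInstanceAs (NormedSpace ℝ ↥(freeSpace M o))

/-- Composition with a base-point preserving Lipschitz self-map, as an operator on `Lip₀(M)`. -/
noncomputable def compOp (r : M → M) (K : ℝ) (hK : 0 ≤ K) (hro : r o = o)
    (hr : ∀ x y, dist (r x) (r y) ≤ K * dist x y) : LipZero M o →L[ℝ] LipZero M o :=
  LinearMap.mkContinuous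
    { toFun := fun f : LipZero M o => ⟨fun x => f.1 (r x), by
        refine ⟨by show f.1 (r o) = 0; rw [hro]; exact f.2.1, ?_⟩
        refine ⟨⟨‖f‖ * K, mul_nonneg (norm_nonneg f) hK⟩, LipschitzWith.of_dist_le_mul fun x y => ?_⟩
        have h := lipConst_spec f (r x) (r y)
        rw [Real.dist_eq]
        calc |f.1 (r x) - f.1 (r y)| ≤ ‖f‖ * dist (r x) (r y) := h
          _ ≤ ‖f‖ * (K * dist x y) := mul_le_mul_of_nonneg_left (hr x y) (norm_nonneg f)
          _ = ‖f‖ * K * dist x y := by ring⟩
      map_add' := fun _ _ => rfl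
      map_smul' := fun _ _ => rfl }
    K
    (fun f => by
      refine lipConst_le _ (mul_nonneg hK (norm_nonneg f)) fun x y => ?_
      have h := lipConst_spec f (r x) (r y)
      calc |f.1 (r x) - f.1 (r y)| ≤ ‖f‖ * dist (r x) (r y) := h
        _ ≤ ‖f‖ * (K * dist x y) := mul_le_mul_of_nonneg_left (hr x y) (norm_nonneg f)
        _ = K * ‖f‖ * dist x y := by ring)

theorem compOp_apply (r : M → M) (K : ℝ) (hK : 0 ≤ K) (hro : r o = o)
    (hr : ∀ x y, dist (r x) (r y) ≤ K * dist x y) (f : LipZero M o) (x : M) :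
    (compOp r K hK hro hr f).1 x = f.1 (r x) := rfl

theorem norm_compOp_le (r : M → M) (K : ℝ) (hK : 0 ≤ K) (hro : r o = o)
    (hr : ∀ x y, dist (r x) (r y) ≤ K * dist x y) : ‖compOp r K hK hro hr‖ ≤ K :=
  LinearMap.mkContinuous_norm_le _ hK _

/-- The dual of the composition operator on `Lip₀(M)^*`. -/
noncomputable def dualOp (r : M → M) (K : ℝ) (hK : 0 ≤ K) (hro : r o = o)
    (hr : ∀ x y, dist (r x) (r y) ≤ K * dist x y) :
    StrongDual ℝ (LipZero M o) →L[ℝ] StrongDual ℝ (LipZero M o) :=
  LinearMap.mkContinuous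
    { toFun := fun φ => φ.comp (compOp r K hK hro hr)
      map_add' := fun _ _ => rfl
      map_smul' := fun _ _ => rfl }
    K
    (fun φ => by
      calc ‖φ.comp (compOp r K hK hro hr)‖ ≤ ‖φ‖ * ‖compOp r K hK hro hr‖ :=
            ContinuousLinearMap.opNorm_comp_le _ _
        _ ≤ ‖φ‖ * K := mul_le_mul_of_nonneg_left (norm_compOp_le r K hK hro hr) (norm_nonneg φ)
        _ = K * ‖φ‖ := mul_comm _ _)

theorem dualOp_apply (r : M → M) (K : ℝ) (hK : 0 ≤ K) (hro : r o = o)
    (hr : ∀ x y, dist (r x) (r y) ≤ K * dist x y) (φ : StrongDual ℝ (LipZero M o))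
    (f : LipZero M o) :
    dualOp r K hK hro hr φ f = φ (compOp r K hK hro hr f) := rfl

theorem dualOp_evalAt (r : M → M) (K : ℝ) (hK : 0 ≤ K) (hro : r o = o)
    (hr : ∀ x y, dist (r x) (r y) ≤ K * dist x y) (x : M) :
    dualOp r K hK hro hr (evalAt x) = evalAt (r x) := rfl

theorem norm_dualOp_le (r : M → M) (K : ℝ) (hK : 0 ≤ K) (hro : r o = o)
    (hr : ∀ x y, dist (r x) (r y) ≤ K * dist x y) : ‖dualOp r K hK hro hr‖ ≤ K :=
  LinearMap.mkContinuous_norm_le _ hK _

/-- The underlying functional of an element of `F(M)`. -/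
noncomputable def FreeSpace.val (u : FreeSpace M o) : StrongDual ℝ (LipZero M o) := u.1

/-- `δ`-span of a set. -/
noncomputable def spanOf (Y : Set M) : Submodule ℝ (StrongDual ℝ (LipZero M o)) :=
  Submodule.span ℝ (evalAt (M := M) (o := o) '' Y)

theorem dualOp_mem_spanOf (r : M → M) (K : ℝ) (hK : 0 ≤ K) (hro : r o = o)
    (hr : ∀ x y, dist (r x) (r y) ≤ K * dist x y) (Y : Set M) (hY : Set.range r ⊆ Y)
    {u : StrongDual ℝ (LipZero M o)}
    (hu : u ∈ Submodule.span ℝ (Set.range (evalAt (M := M) (o := o)))) :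
    dualOp r K hK hro hr u ∈ spanOf (o := o) Y := by
  induction hu using Submodule.span_induction with
  | mem u hu =>
    obtain ⟨x, rfl⟩ := hu
    rw [dualOp_evalAt]
    exact Submodule.subset_span ⟨r x, hY ⟨x, rfl⟩, rfl⟩
  | zero => simp
  | add a b _ _ ha hb => rw [map_add]; exact Submodule.add_mem _ ha hb
  | smul c a _ ha => rw [map_smul]; exact Submodule.smul_mem _ _ ha

theorem spanOf_le (Y : Set M) :
    spanOf (o := o) Y ≤ Submodule.span ℝ (Set.range (evalAt (M := M) (o := o))) :=
  Submodule.span_mono (Set.image_subset_range _ _)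

theorem dualOp_mem_free (r : M → M) (K : ℝ) (hK : 0 ≤ K) (hro : r o = o)
    (hr : ∀ x y, dist (r x) (r y) ≤ K * dist x y) (W : Submodule ℝ (StrongDual ℝ (LipZero M o)))
    (hW : spanOf (o := o) (Set.range r) ≤ W) (hWc : IsClosed (W : Set (StrongDual ℝ (LipZero M o))))
    {u : StrongDual ℝ (LipZero M o)} (hu : u ∈ freeSpace M o) :
    dualOp r K hK hro hr u ∈ W := by
  have hcl : u ∈ closure ((Submodule.span ℝ (Set.range (evalAt (M := M) (o := o))) :
      Submodule ℝ (StrongDual ℝ (LipZero M o))) : Set (StrongDual ℝ (LipZero M o))) := by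
    rw [← Submodule.topologicalClosure_coe]
    exact hu
  have := map_mem_closure (dualOp r K hK hro hr).continuous hcl (t := (W : Set _))
    (fun v hv => hW (dualOp_mem_spanOf r K hK hro hr (Set.range r) le_rfl hv))
  rw [hWc.closure_eq] at this
  exact this

/-- The operator on `F(M)` induced by a Lipschitz self-map. -/
noncomputable def freeOp (r : M → M) (K : ℝ) (hK : 0 ≤ K) (hro : r o = o)
    (hr : ∀ x y, dist (r x) (r y) ≤ K * dist x y) :
    FreeSpace M o →L[ℝ] FreeSpace M o :=
  LinearMap.mkContinuous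
    { toFun := fun u => ⟨dualOp r K hK hro hr u.1,
        dualOp_mem_free r K hK hro hr (freeSpace M o)
          (fun _ hv => Submodule.le_topologicalClosure _ (spanOf_le (o := o) _ hv))
          (Submodule.isClosed_topologicalClosure _) u.2⟩
      map_add' := fun a b => Subtype.ext (map_add (dualOp r K hK hro hr) a.1 b.1)
      map_smul' := fun c a => Subtype.ext (map_smul (dualOp r K hK hro hr) c a.1) }
    K
    (fun _ => (ContinuousLinearMap.le_opNorm _ _).trans
      (mul_le_mul_of_nonneg_right (norm_dualOp_le r K hK hro hr) (norm_nonneg _)))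

theorem freeOp_coe (r : M → M) (K : ℝ) (hK : 0 ≤ K) (hro : r o = o)
    (hr : ∀ x y, dist (r x) (r y) ≤ K * dist x y) (u : FreeSpace M o) :
    (freeOp r K hK hro hr u).1 = dualOp r K hK hro hr u.1 := rfl

theorem norm_freeOp_le (r : M → M) (K : ℝ) (hK : 0 ≤ K) (hro : r o = o)
    (hr : ∀ x y, dist (r x) (r y) ≤ K * dist x y) : ‖freeOp r K hK hro hr‖ ≤ K :=
  LinearMap.mkContinuous_norm_le _ hK _

theorem spanOf_finite (Y : Set M) (hY : Y.Finite) :
    FiniteDimensional ℝ (spanOf (o := o) Y) :=
  FiniteDimensional.span_of_finite ℝ (hY.image _)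

/-- If `r` has finite range the induced operator has finite rank. -/
theorem freeOp_finite_rank (r : M → M) (K : ℝ) (hK : 0 ≤ K) (hro : r o = o)
    (hr : ∀ x y, dist (r x) (r y) ≤ K * dist x y) (hfin : (Set.range r).Finite) :
    FiniteDimensional ℝ (LinearMap.range (freeOp r K hK hro hr : FreeSpace M o →ₗ[ℝ] FreeSpace M o)) := by
  classical
  set W : Submodule ℝ (StrongDual ℝ (LipZero M o)) := spanOf (o := o) (Set.range r) with hW
  have hWfin : FiniteDimensional ℝ W := spanOf_finite _ hfin
  have hWclosed : IsClosed (W : Set (StrongDual ℝ (LipZero M o))) :=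
    Submodule.closed_of_finiteDimensional W
  have hmem : ∀ u : FreeSpace M o, (freeOp r K hK hro hr u).1 ∈ W := fun u =>
    dualOp_mem_free r K hK hro hr W le_rfl hWclosed u.2
  let g : LinearMap.range (freeOp r K hK hro hr : FreeSpace M o →ₗ[ℝ] FreeSpace M o) →ₗ[ℝ] W :=
    { toFun := fun v => ⟨(v : FreeSpace M o).1, by
        obtain ⟨v, u, rfl⟩ := v
        exact hmem u⟩
      map_add' := fun _ _ => rfl
      map_smul' := fun _ _ => rfl }
  have hg : Function.Injective g := by
    intro a b hab
    apply Subtype.ext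
    apply Subtype.ext
    exact congrArg (fun z : W => (z : StrongDual ℝ (LipZero M o))) hab
  exact FiniteDimensional.of_injective (K := ℝ) (V₂ := W) g hg

/-- Every element of the span of the `δ_x` lies in the span of finitely many of them. -/
theorem exists_finset_of_mem_span {u : StrongDual ℝ (LipZero M o)}
    (hu : u ∈ Submodule.span ℝ (Set.range (evalAt (M := M) (o := o)))) :
    ∃ F : Finset M, u ∈ spanOf (o := o) (F : Set M) := by
  classical
  induction hu using Submodule.span_induction with
  | mem u hu =>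
    obtain ⟨x, rfl⟩ := hu
    exact ⟨{x}, Submodule.subset_span ⟨x, by simp, rfl⟩⟩
  | zero => exact ⟨∅, Submodule.zero_mem _⟩
  | add a b _ _ ha hb =>
    obtain ⟨F, hF⟩ := ha
    obtain ⟨G, hG⟩ := hb
    refine ⟨F ∪ G, Submodule.add_mem _ ?_ ?_⟩
    · exact Submodule.span_mono (Set.image_mono (by simp)) hF
    · exact Submodule.span_mono (Set.image_mono (by simp)) hG
  | smul c a _ ha =>
    obtain ⟨F, hF⟩ := ha
    exact ⟨F, Submodule.smul_mem _ _ hF⟩

/-- The operator fixes `spanOf F` if `r` fixes `F` pointwise. -/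
theorem dualOp_fix (r : M → M) (K : ℝ) (hK : 0 ≤ K) (hro : r o = o)
    (hr : ∀ x y, dist (r x) (r y) ≤ K * dist x y) (F : Set M) (hF : ∀ x ∈ F, r x = x)
    {u : StrongDual ℝ (LipZero M o)} (hu : u ∈ spanOf (o := o) F) :
    dualOp r K hK hro hr u = u := by
  unfold spanOf at hu
  induction hu using Submodule.span_induction with
  | mem u hu =>
    obtain ⟨x, hx, rfl⟩ := hu
    rw [dualOp_evalAt, hF x hx]
  | zero => simp
  | add a b _ _ ha hb => rw [map_add, ha, hb]
  | smul c a _ ha => rw [map_smul, ha]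

/-- **Finite-range retractions give the BAP.**  If every finite subset containing the base point
is fixed pointwise by a `K`-Lipschitz self-map with finite range, then `F(M)` has the `K`-BAP. -/
theorem hasBAP_of_finite_retractions {K : ℝ} (hK : 0 ≤ K)
    (h : ∀ F : Finset M, o ∈ F → ∃ r : M → M, (∀ x ∈ F, r x = x) ∧ (Set.range r).Finite ∧
      ∀ x y, dist (r x) (r y) ≤ K * dist x y) :
    HasBAP K (FreeSpace M o) := by
  classical
  intro C hC ε hε
  set ε' : ℝ := ε / (K + 2) with hε'
  have hK2 : 0 < K + 2 := by linarith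
  have hε'pos : 0 < ε' := div_pos hε hK2
  obtain ⟨t, _, htfin, htcov⟩ := hC.finite_cover_balls (show 0 < ε' / 2 by positivity)
  have hy : ∀ u ∈ t, ∃ y ∈ Submodule.span ℝ (Set.range (evalAt (M := M) (o := o))),
      ‖(FreeSpace.val u) - y‖ < ε' / 2 := by
    intro u _
    have hu' : FreeSpace.val u ∈ closure
        ((Submodule.span ℝ (Set.range (evalAt (M := M) (o := o))) :
        Submodule ℝ (StrongDual ℝ (LipZero M o))) : Set (StrongDual ℝ (LipZero M o))) := by
      rw [← Submodule.topologicalClosure_coe]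
      exact u.2
    obtain ⟨y, hy, hyd⟩ := Metric.mem_closure_iff.mp hu' (ε' / 2) (by positivity)
    exact ⟨y, hy, by simpa [dist_eq_norm] using hyd⟩
  choose! yy hyy_mem hyy_near using hy
  have hF : ∀ u : FreeSpace M o, ∃ F : Finset M,
      u ∈ t → yy u ∈ spanOf (o := o) (F : Set M) := by
    intro u
    by_cases hu : u ∈ t
    · obtain ⟨F, hF⟩ := exists_finset_of_mem_span (hyy_mem u hu)
      exact ⟨F, fun _ => hF⟩
    · exact ⟨∅, fun h => absurd h hu⟩
  choose FF hFF using hF
  set F : Finset M := insert o (htfin.toFinset.biUnion FF) with hFdef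
  obtain ⟨r, hrF, hrfin, hrL⟩ := h F (Finset.mem_insert_self _ _)
  have hro : r o = o := hrF o (Finset.mem_insert_self _ _)
  refine ⟨freeOp r K hK hro hrL, freeOp_finite_rank r K hK hro hrL hrfin,
    norm_freeOp_le r K hK hro hrL, ?_⟩
  intro u hu
  -- choose the net point
  obtain ⟨v, hvt, huv⟩ : ∃ v ∈ t, dist u v < ε' / 2 := by
    have := htcov hu
    simpa using this
  have hvspan : yy v ∈ spanOf (o := o) (F : Set M) := by
    refine Submodule.span_mono (Set.image_mono ?_) (hFF v hvt)
    intro x hx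
    have : x ∈ htfin.toFinset.biUnion FF :=
      Finset.mem_biUnion.mpr ⟨v, htfin.mem_toFinset.mpr hvt, hx⟩
    exact Finset.mem_coe.mpr (Finset.mem_insert_of_mem this)
  have hfix : dualOp r K hK hro hrL (yy v) = yy v :=
    dualOp_fix r K hK hro hrL (F : Set M) (fun x hx => hrF x (Finset.mem_coe.mp hx)) hvspan
  have hnear : ‖FreeSpace.val u - yy v‖ < ε' := by
    have h1 : ‖FreeSpace.val u - FreeSpace.val v‖ < ε' / 2 := by
      have : dist u v = ‖FreeSpace.val u - FreeSpace.val v‖ := by
        rw [dist_eq_norm]; rfl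
      linarith
    have h2 := hyy_near v hvt
    calc ‖FreeSpace.val u - yy v‖
        = ‖(FreeSpace.val u - FreeSpace.val v) + (FreeSpace.val v - yy v)‖ := by congr 1; abel
      _ ≤ ‖FreeSpace.val u - FreeSpace.val v‖ + ‖FreeSpace.val v - yy v‖ := norm_add_le _ _
      _ < ε' := by linarith
  -- the estimate
  have hkey : FreeSpace.val (freeOp r K hK hro hrL u - u)
      = dualOp r K hK hro hrL (FreeSpace.val u - yy v) - (FreeSpace.val u - yy v) := by
    rw [map_sub, hfix]
    show dualOp r K hK hro hrL (FreeSpace.val u) - FreeSpace.val u = _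
    abel
  have hnorm : ‖freeOp r K hK hro hrL u - u‖ = ‖FreeSpace.val (freeOp r K hK hro hrL u - u)‖ := rfl
  rw [hnorm, hkey]
  calc ‖dualOp r K hK hro hrL (FreeSpace.val u - yy v) - (FreeSpace.val u - yy v)‖
      ≤ ‖dualOp r K hK hro hrL (FreeSpace.val u - yy v)‖ + ‖FreeSpace.val u - yy v‖ := norm_sub_le _ _
    _ ≤ K * ‖FreeSpace.val u - yy v‖ + ‖FreeSpace.val u - yy v‖ := by
        gcongr
        exact (ContinuousLinearMap.le_opNorm _ _).trans
          (mul_le_mul_of_nonneg_right (norm_dualOp_le r K hK hro hrL) (norm_nonneg _))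
    _ = (K + 1) * ‖FreeSpace.val u - yy v‖ := by ring
    _ ≤ (K + 1) * ε' := by gcongr
    _ < ε := by
        rw [hε', mul_div_assoc', div_lt_iff₀ hK2]
        nlinarith

/-- **Correction on a finite set.**  In a uniformly discrete space it is enough to have, for every
finite set, a coarsely Lipschitz map of finite range moving the points of the set by a bounded
amount. -/
theorem hasBAP_of_coarse {θ A B c : ℝ} (hθ : 0 < θ) (hA : 0 ≤ A) (hB : 0 ≤ B) (hc : 0 ≤ c)
    (hsep : ∀ x y : M, x ≠ y → θ ≤ dist x y)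
    (h : ∀ F : Finset M, ∃ s : M → M, (Set.range s).Finite ∧
      (∀ x y, dist (s x) (s y) ≤ A * dist x y + B) ∧ ∀ x ∈ F, dist (s x) x ≤ c) :
    HasBAP (A + (B + 2 * c) / θ) (FreeSpace M o) := by
  classical
  have hK : 0 ≤ A + (B + 2 * c) / θ := by positivity
  refine hasBAP_of_finite_retractions hK fun F _ => ?_
  obtain ⟨s, hsfin, hsL, hsF⟩ := h F
  refine ⟨fun x => if x ∈ F then x else s x, ?_, ?_, ?_⟩
  · intro x hx
    simp [hx]
  · refine ((F.finite_toSet).union hsfin).subset ?_
    rintro _ ⟨x, rfl⟩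
    by_cases hx : x ∈ F
    · left; simp [hx]
    · right; exact ⟨x, by simp [hx]⟩
  · intro x y
    rcases eq_or_ne x y with rfl | hxy
    · simp
    have hd : θ ≤ dist x y := hsep x y hxy
    have hdpos : 0 < dist x y := lt_of_lt_of_le hθ hd
    have hfrac : B + 2 * c ≤ (B + 2 * c) / θ * dist x y := by
      rw [div_mul_eq_mul_div, le_div_iff₀ hθ]
      exact mul_le_mul_of_nonneg_left hd (by positivity)
    have hbase : dist (s x) (s y) + 2 * c ≤ (A + (B + 2 * c) / θ) * dist x y := by
      have := hsL x y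
      nlinarith
    dsimp only
    split_ifs with hx hy hy
    · calc dist x y ≤ dist x (s x) + dist (s x) (s y) + dist (s y) y := dist_triangle4 _ _ _ _
        _ ≤ c + dist (s x) (s y) + c := by
            have h1 := hsF x hx
            have h2 := hsF y hy
            rw [dist_comm] at h1
            linarith
        _ ≤ _ := by linarith
    · calc dist x (s y) ≤ dist x (s x) + dist (s x) (s y) := dist_triangle _ _ _
        _ ≤ c + dist (s x) (s y) := by
            have h1 := hsF x hx
            rw [dist_comm] at h1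
            linarith
        _ ≤ _ := by linarith
    · calc dist (s x) y ≤ dist (s x) (s y) + dist (s y) y := dist_triangle _ _ _
        _ ≤ dist (s x) (s y) + c := by
            have h2 := hsF y hy
            linarith
        _ ≤ _ := by linarith
    · linarith

end Vale.Agent.Lib.P090
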