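import Mathlib

/-!
Lipschitz-free spaces and the bounded approximation property.
-/

namespace Vale.Agent.Lib.P090

open scoped NNReal

/-- The functions `M → ℝ` that are Lipschitz and vanish at the base point `o`. -/
def lipZeroSubmodule (M : Type*) [MetricSpace M] (o : M) : Submodule ℝ (M → ℝ) where
  carrier := {f | f o = 0 ∧ ∃ K : ℝ≥0, LipschitzWith K f}
  add_mem' := by
    rintro f g ⟨hf0, Kf, hf⟩ ⟨hg0, Kg, hg⟩
    exact ⟨by simp [hf0, hg0], Kf + Kg, hf.add hg⟩
  zero_mem' := ⟨rfl, 0, LipschitzWith.const 0⟩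
  smul_mem' := by
    rintro c f ⟨hf0, Kf, hf⟩
    refine ⟨by simp [hf0], ‖c‖₊ * Kf, LipschitzWith.of_dist_le_mul fun x y => ?_⟩
    have h := hf.dist_le_mul x y
    simp only [Pi.smul_apply, smul_eq_mul, Real.dist_eq, NNReal.coe_mul, coe_nnnorm,
      Real.norm_eq_abs] at h ⊢
    rw [← mul_sub, abs_mul, mul_assoc]
    exact mul_le_mul_of_nonneg_left h (abs_nonneg c)

/-- `Lip₀(M)`: Lipschitz functions on the pointed metric space `(M, o)` vanishing at `o`. -/
def LipZero (M : Type*) [MetricSpace M] (o : M) : Type _ := ↥(lipZeroSubmodule M o)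

variable {M : Type*} [MetricSpace M] {o : M}

instance : AddCommGroup (LipZero M o) := Submodule.addCommGroup (lipZeroSubmodule M o)

instance : Module ℝ (LipZero M o) := Submodule.module (lipZeroSubmodule M o)

/-- The Lipschitz constant of a function: the least `K ≥ 0` with
`|f x - f y| ≤ K * dist x y` for all `x, y`. -/
noncomputable def lipConst (f : M → ℝ) : ℝ :=
  sInf {K : ℝ | 0 ≤ K ∧ ∀ x y, |f x - f y| ≤ K * dist x y}

theorem lipZero_bdd (f : LipZero M o) :
    ∃ K : ℝ, 0 ≤ K ∧ ∀ x y, |f.1 x - f.1 y| ≤ K * dist x y := by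
  obtain ⟨K, hK⟩ := f.2.2
  refine ⟨K, K.2, fun x y => ?_⟩
  simpa [Real.dist_eq] using hK.dist_le_mul x y

theorem lipConst_spec (f : LipZero M o) (x y : M) :
    |f.1 x - f.1 y| ≤ lipConst f.1 * dist x y := by
  rcases eq_or_ne x y with rfl | hxy
  · simp
  have hd : 0 < dist x y := dist_pos.mpr hxy
  have hne : {K : ℝ | 0 ≤ K ∧ ∀ x y, |f.1 x - f.1 y| ≤ K * dist x y}.Nonempty := by
    obtain ⟨K, hK⟩ := lipZero_bdd f
    exact ⟨K, hK⟩
  have : |f.1 x - f.1 y| / dist x y ≤ lipConst f.1 := by
    apply le_csInf hne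
    rintro K ⟨_, hK⟩
    exact (div_le_iff₀ hd).mpr (hK x y)
  exact (div_le_iff₀ hd).mp this

theorem lipConst_nonneg (f : LipZero M o) : 0 ≤ lipConst f.1 := by
  apply Real.sInf_nonneg
  rintro K ⟨hK, _⟩
  exact hK

theorem lipConst_le (f : LipZero M o) {K : ℝ} (hK : 0 ≤ K)
    (h : ∀ x y, |f.1 x - f.1 y| ≤ K * dist x y) : lipConst f.1 ≤ K :=
  csInf_le ⟨0, by rintro K ⟨hK, _⟩; exact hK⟩ ⟨hK, h⟩

/-- The norm of `Lip₀(M)` is the Lipschitz constant. -/
noncomputable instance : Norm (LipZero M o) := ⟨fun f => lipConst f.1⟩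

theorem norm_lipZero_def (f : LipZero M o) : ‖f‖ = lipConst f.1 := rfl

/-- The Lipschitz constant is a norm on `Lip₀(M)`. -/
theorem lipZero_core : NormedSpace.Core ℝ (LipZero M o) where
  norm_nonneg f := lipConst_nonneg f
  norm_smul c f := by
    rw [norm_lipZero_def, norm_lipZero_def]
    apply le_antisymm
    · refine lipConst_le (c • f) (mul_nonneg (norm_nonneg c) (lipConst_nonneg f)) fun x y => ?_
      have : (c • f).1 = c • f.1 := rfl
      rw [this]
      simp only [Pi.smul_apply, smul_eq_mul]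
      rw [← mul_sub, abs_mul, mul_assoc]
      exact mul_le_mul_of_nonneg_left (lipConst_spec f x y) (abs_nonneg c)
    · rcases eq_or_ne c 0 with rfl | hc
      · simp only [norm_zero, zero_mul]
        exact lipConst_nonneg _
      have hc' : 0 < ‖c‖ := norm_pos_iff.mpr hc
      rw [← le_div_iff₀' hc']
      refine lipConst_le f (div_nonneg (lipConst_nonneg _) hc'.le) fun x y => ?_
      have h := lipConst_spec (c • f) x y
      have : (c • f).1 = c • f.1 := rfl
      rw [this] at h
      simp only [Pi.smul_apply, smul_eq_mul] at h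
      rw [← mul_sub, abs_mul] at h
      rw [div_mul_eq_mul_div, le_div_iff₀ hc', mul_comm]
      simpa [this, Real.norm_eq_abs] using h
  norm_triangle f g := by
    rw [norm_lipZero_def, norm_lipZero_def, norm_lipZero_def]
    refine lipConst_le (f + g) (add_nonneg (lipConst_nonneg f) (lipConst_nonneg g)) fun x y => ?_
    have hfg : (f + g).1 = f.1 + g.1 := rfl
    rw [hfg]
    simp only [Pi.add_apply]
    calc |f.1 x + g.1 x - (f.1 y + g.1 y)| = |(f.1 x - f.1 y) + (g.1 x - g.1 y)| := by ring_nf
      _ ≤ |f.1 x - f.1 y| + |g.1 x - g.1 y| := abs_add_le _ _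
      _ ≤ lipConst f.1 * dist x y + lipConst g.1 * dist x y :=
          add_le_add (lipConst_spec f x y) (lipConst_spec g x y)
      _ = _ := by ring
  norm_eq_zero_iff f := by
    rw [norm_lipZero_def]
    constructor
    · intro h
      apply Subtype.ext
      funext x
      have h1 := lipConst_spec f x o
      rw [h, zero_mul, f.2.1, sub_zero] at h1
      exact abs_nonpos_iff.mp h1
    · rintro rfl
      apply le_antisymm
      · refine lipConst_le 0 le_rfl fun x y => ?_
        have h0 : (0 : LipZero M o).1 = 0 := rfl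
        rw [h0]
        simp
      · exact lipConst_nonneg _

noncomputable instance : NormedAddCommGroup (LipZero M o) :=
  NormedAddCommGroup.ofCore lipZero_core

noncomputable instance : NormedSpace ℝ (LipZero M o) := NormedSpace.ofCore lipZero_core

/-- The evaluation functional `δ_x ∈ Lip₀(M)^*`, `δ_x(f) = f(x)`. -/
noncomputable def evalAt (x : M) : StrongDual ℝ (LipZero M o) :=
  LinearMap.mkContinuous (𝕜 := ℝ) (σ := RingHom.id ℝ)
    ({ toFun := fun f : LipZero M o => f.1 x
       map_add' := fun _ _ => rfl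
       map_smul' := fun _ _ => rfl } : LipZero M o →ₗ[ℝ] ℝ)
    (dist x o)
    (fun f => by
      have h := lipConst_spec f x o
      rw [f.2.1, sub_zero] at h
      rw [Real.norm_eq_abs, norm_lipZero_def, mul_comm]
      exact h)

/-- The Lipschitz-free space `F(M)`: the closed linear span of the evaluations `δ_x` in the dual
of `Lip₀(M)`, with the norm and the linear structure it inherits from that dual. -/
noncomputable def freeSpace (M : Type*) [MetricSpace M] (o : M) :
    Submodule ℝ (StrongDual ℝ (LipZero M o)) :=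
  (Submodule.span ℝ (Set.range (evalAt (M := M) (o := o)))).topologicalClosure

/-- The `lam`-bounded approximation property: for every norm-compact `C ⊆ E` and `ε > 0` there is
a bounded finite-rank linear operator `T : E → E` with `‖T‖ ≤ lam` and `‖T u - u‖ < ε` on `C`. -/
def HasBAP (lam : ℝ) (E : Type*) [NormedAddCommGroup E] [NormedSpace ℝ E] : Prop :=
  ∀ C : Set E, IsCompact C → ∀ ε > 0, ∃ T : E →L[ℝ] E,
    FiniteDimensional ℝ (LinearMap.range (T : E →ₗ[ℝ] E)) ∧ ‖T‖ ≤ lam ∧ ∀ u ∈ C, ‖T u - u‖ < ε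

end Vale.Agent.Lib.P090
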