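import Vale.Agent.Lib.P090.Core

/-!
Uniformly discrete coarse Lipschitz retracts of Banach spaces with the bounded approximation
property have a Lipschitz-free space with the bounded approximation property.
-/

namespace Vale.Agent.Lib.P090

section radial

variable {X : Type*} [NormedAddCommGroup X] [NormedSpace ℝ X]

/-- The radial retraction of a normed space onto the closed ball of radius `R`. -/
noncomputable def radial (R : ℝ) (u : X) : X := (R / max R ‖u‖) • u

theorem radial_of_le {R : ℝ} (hR : 0 < R) {u : X} (hu : ‖u‖ ≤ R) : radial R u = u := by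
  unfold radial
  rw [max_eq_left hu, div_self hR.ne', one_smul]

theorem norm_radial_le {R : ℝ} (hR : 0 < R) (u : X) : ‖radial R u‖ ≤ R := by
  unfold radial
  have hm : 0 < max R ‖u‖ := lt_of_lt_of_le hR (le_max_left _ _)
  rw [norm_smul, Real.norm_eq_abs, abs_of_nonneg (div_nonneg hR.le hm.le), div_mul_eq_mul_div,
    div_le_iff₀ hm]
  exact mul_le_mul_of_nonneg_left (le_max_right _ _) hR.le

theorem radial_lipschitz_aux {R : ℝ} (hR : 0 < R) {u v : X} (h : max R ‖v‖ ≤ max R ‖u‖) :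
    ‖radial R u - radial R v‖ ≤ 2 * ‖u - v‖ := by
  unfold radial
  set mu := max R ‖u‖ with hmu
  set mv := max R ‖v‖ with hmv
  have hmv0 : 0 < mv := lt_of_lt_of_le hR (le_max_left _ _)
  have hmu0 : 0 < mu := lt_of_lt_of_le hmv0 h
  have hRmu : R ≤ mu := le_max_left _ _
  have htu : R / mu ≤ 1 := (div_le_one hmu0).mpr hRmu
  have htu0 : 0 ≤ R / mu := div_nonneg hR.le hmu0.le
  have hdiff : mu - mv ≤ ‖u - v‖ := by
    have h1 : |max R ‖u‖ - max R ‖v‖| ≤ |‖u‖ - ‖v‖| := by
      have := abs_max_sub_max_le_abs ‖u‖ ‖v‖ R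
      rwa [max_comm ‖u‖ R, max_comm ‖v‖ R] at this
    have h2 : |‖u‖ - ‖v‖| ≤ ‖u - v‖ := abs_norm_sub_norm_le u v
    have h3 := le_abs_self (max R ‖u‖ - max R ‖v‖)
    simp only [hmu, hmv]
    linarith
  have hnv : ‖v‖ ≤ mv := le_max_right _ _
  have hsplit : (R / mu) • u - (R / mv) • v
      = (R / mu) • (u - v) + (R / mu - R / mv) • v := by
    rw [smul_sub, sub_smul]; abel
  rw [hsplit]
  have h1 : ‖(R / mu) • (u - v)‖ ≤ ‖u - v‖ := by
    rw [norm_smul, Real.norm_eq_abs, abs_of_nonneg htu0]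
    calc R / mu * ‖u - v‖ ≤ 1 * ‖u - v‖ := mul_le_mul_of_nonneg_right htu (norm_nonneg _)
      _ = ‖u - v‖ := one_mul _
  have h2 : ‖(R / mu - R / mv) • v‖ ≤ ‖u - v‖ := by
    have hle : R / mu ≤ R / mv := div_le_div_of_nonneg_left hR.le hmv0 h
    rw [norm_smul, Real.norm_eq_abs, abs_of_nonpos (sub_nonpos.mpr hle)]
    have heq : -(R / mu - R / mv) = (R / mu) * ((mu - mv) / mv) := by
      field_simp
      ring
    rw [heq]
    have hq : (mu - mv) / mv * ‖v‖ ≤ mu - mv := by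
      rw [div_mul_eq_mul_div, div_le_iff₀ hmv0]
      exact mul_le_mul_of_nonneg_left hnv (sub_nonneg.mpr h)
    calc R / mu * ((mu - mv) / mv) * ‖v‖ = R / mu * ((mu - mv) / mv * ‖v‖) := by ring
      _ ≤ 1 * ((mu - mv) / mv * ‖v‖) :=
          mul_le_mul_of_nonneg_right htu
            (mul_nonneg (div_nonneg (sub_nonneg.mpr h) hmv0.le) (norm_nonneg _))
      _ = (mu - mv) / mv * ‖v‖ := one_mul _
      _ ≤ mu - mv := hq
      _ ≤ ‖u - v‖ := hdiff
  calc _ ≤ ‖(R / mu) • (u - v)‖ + ‖(R / mu - R / mv) • v‖ := norm_add_le _ _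
    _ ≤ ‖u - v‖ + ‖u - v‖ := add_le_add h1 h2
    _ = 2 * ‖u - v‖ := by ring

theorem radial_lipschitz {R : ℝ} (hR : 0 < R) (u v : X) :
    ‖radial R u - radial R v‖ ≤ 2 * ‖u - v‖ := by
  rcases le_total (max R ‖v‖) (max R ‖u‖) with h | h
  · exact radial_lipschitz_aux hR h
  · have := radial_lipschitz_aux hR h
    rwa [norm_sub_rev, norm_sub_rev v u] at this

end radial

theorem HasBAP.mono {E : Type*} [NormedAddCommGroup E] [NormedSpace ℝ E] {a b : ℝ} (hab : a ≤ b)
    (h : HasBAP a E) : HasBAP b E := by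
  intro C hC ε hε
  obtain ⟨T, h1, h2, h3⟩ := h C hC ε hε
  exact ⟨T, h1, h2.trans hab, h3⟩

theorem HasBAP.nonneg {E : Type*} [NormedAddCommGroup E] [NormedSpace ℝ E] {a : ℝ}
    (h : HasBAP a E) : 0 ≤ a := by
  obtain ⟨T, _, h2, _⟩ := h ∅ isCompact_empty 1 one_pos
  exact (norm_nonneg T).trans h2

variable {M : Type*} [MetricSpace M] {o : M}
variable {X : Type*} [NormedAddCommGroup X] [NormedSpace ℝ X]

/-- The general theorem.  `M` is uniformly discrete and `i : M → X`, `p : X → M` exhibit `M` as a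
coarse Lipschitz retract of a normed space `X` with the `lam`-BAP. -/
theorem hasBAP_of_coarse_retract {lam θ L L' c₁ c₂ : ℝ} (hX : HasBAP lam X)
    (hθ : 0 < θ) (hsep : ∀ x y : M, x ≠ y → θ ≤ dist x y)
    (hL : 0 ≤ L) (hL' : 0 ≤ L') (hc₁ : 0 ≤ c₁) (hc₂ : 0 ≤ c₂)
    (i : M → X) (p : X → M)
    (hi : ∀ x y, ‖i x - i y‖ ≤ L * dist x y)
    (hp : ∀ u v, dist (p u) (p v) ≤ L' * ‖u - v‖ + c₁)
    (hret : ∀ x, dist (p (i x)) x ≤ c₂) :
    HasBAP (2 * L * L' * lam + 1 + (3 * c₁ + 2 * c₂) / θ) (FreeSpace M o) := by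
  classical
  have hlam : 0 ≤ lam := hX.nonneg
  set η : ℝ := θ / (6 * (L' + 1)) with hη
  have hL'1 : 0 < L' + 1 := by linarith
  have hηpos : 0 < η := by positivity
  have hηL' : 6 * (L' * η) ≤ θ := by
    have h6 : 6 * (L' + 1) * η = θ := by
      rw [hη]; field_simp
    nlinarith
  set A : ℝ := 2 * L * L' * lam with hA
  have hA0 : 0 ≤ A := by positivity
  set B : ℝ := 2 * (L' * η) + c₁ with hB
  have hB0 : 0 ≤ B := by positivity
  set c : ℝ := 2 * (L' * η) + c₁ + c₂ with hc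
  have hc0 : 0 ≤ c := by positivity
  have hmain : HasBAP (A + (B + 2 * c) / θ) (FreeSpace M o) := by
    refine hasBAP_of_coarse hθ hA0 hB0 hc0 hsep fun F => ?_
    -- a finite-rank operator close to the identity on `i '' F`
    have hcomp : IsCompact (i '' (F : Set M)) := (F.finite_toSet.image i).isCompact
    obtain ⟨S, hSfin, hSnorm, hSclose⟩ := hX _ hcomp η hηpos
    set Z : Submodule ℝ X := LinearMap.range (S : X →ₗ[ℝ] X) with hZ
    have hZfin : FiniteDimensional ℝ Z := hSfin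
    set R : ℝ := 1 + ∑ x ∈ F, ‖S (i x)‖ with hR
    have hRpos : 0 < R := by
      have : 0 ≤ ∑ x ∈ F, ‖S (i x)‖ := Finset.sum_nonneg fun _ _ => norm_nonneg _
      linarith
    have hRbound : ∀ x ∈ F, ‖S (i x)‖ ≤ R := by
      intro x hx
      have h1 : ‖S (i x)‖ ≤ ∑ y ∈ F, ‖S (i y)‖ :=
        Finset.single_le_sum (f := fun y => ‖S (i y)‖) (fun _ _ => norm_nonneg _) hx
      linarith
    -- the compact set where the truncated images live
    set K : Set X := (fun z : Z => (z : X)) '' Metric.closedBall (0 : Z) R with hK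
    have hKcomp : IsCompact K := by
      have : ProperSpace Z := FiniteDimensional.proper_real Z
      exact (isCompact_closedBall (0 : Z) R).image continuous_subtype_val
    obtain ⟨t, _, htfin, htcov⟩ := hKcomp.finite_cover_balls hηpos
    have hψ : ∀ z ∈ K, ∃ z' ∈ t, ‖z - z'‖ < η := by
      intro z hz
      have := htcov hz
      simp only [Set.mem_iUnion, Metric.mem_ball, exists_prop] at this
      obtain ⟨z', hz', hd⟩ := this
      exact ⟨z', hz', by rwa [dist_eq_norm] at hd⟩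
    choose! ψ hψt hψd using hψ
    set g : M → X := fun x => radial R (S (i x)) with hg
    have hgK : ∀ x, g x ∈ K := by
      intro x
      have hmem : g x ∈ Z := by
        show radial R (S (i x)) ∈ Z
        unfold radial
        exact Z.smul_mem _ ⟨i x, rfl⟩
      refine ⟨⟨g x, hmem⟩, ?_, rfl⟩
      rw [mem_closedBall_zero_iff]
      exact norm_radial_le hRpos _
    have hgF : ∀ x ∈ F, g x = S (i x) := fun x hx => radial_of_le hRpos (hRbound x hx)
    have hgL : ∀ x y, ‖g x - g y‖ ≤ 2 * (lam * (L * dist x y)) := by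
      intro x y
      refine (radial_lipschitz hRpos _ _).trans ?_
      rw [← map_sub]
      have h1 : ‖S (i x - i y)‖ ≤ ‖S‖ * ‖i x - i y‖ := S.le_opNorm _
      have h2 : ‖S‖ * ‖i x - i y‖ ≤ lam * (L * dist x y) :=
        mul_le_mul hSnorm (hi x y) (norm_nonneg _) hlam
      linarith
    refine ⟨fun x => p (ψ (g x)), ?_, ?_, ?_⟩
    · refine (htfin.image p).subset ?_
      rintro _ ⟨x, rfl⟩
      exact ⟨ψ (g x), hψt _ (hgK x), rfl⟩
    · intro x y
      have h1 := hp (ψ (g x)) (ψ (g y))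
      have h2 : ‖ψ (g x) - ψ (g y)‖ ≤ ‖g x - ψ (g x)‖ + ‖g x - g y‖ + ‖g y - ψ (g y)‖ := by
        have : ψ (g x) - ψ (g y) = -(g x - ψ (g x)) + (g x - g y) + (g y - ψ (g y)) := by abel
        rw [this]
        calc _ ≤ ‖-(g x - ψ (g x)) + (g x - g y)‖ + ‖g y - ψ (g y)‖ := norm_add_le _ _
          _ ≤ ‖-(g x - ψ (g x))‖ + ‖g x - g y‖ + ‖g y - ψ (g y)‖ :=
              add_le_add_left (norm_add_le _ _) _
          _ = _ := by rw [norm_neg]
      have h3 := (hψd _ (hgK x)).le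
      have h4 := (hψd _ (hgK y)).le
      have h5 := hgL x y
      have h6 : ‖ψ (g x) - ψ (g y)‖ ≤ 2 * η + 2 * (lam * (L * dist x y)) := by linarith
      have h7 := mul_le_mul_of_nonneg_left h6 hL'
      have hAeq : A * dist x y = L' * (2 * (lam * (L * dist x y))) := by
        rw [hA]; ring
      have hBeq : B = L' * (2 * η) + c₁ := by rw [hB]; ring
      calc dist (p (ψ (g x))) (p (ψ (g y))) ≤ L' * ‖ψ (g x) - ψ (g y)‖ + c₁ := h1
        _ ≤ L' * (2 * η + 2 * (lam * (L * dist x y))) + c₁ := by linarith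
        _ = A * dist x y + B := by rw [hAeq, hBeq]; ring
    · intro x hx
      have hx' : i x ∈ i '' (F : Set M) := ⟨x, Finset.mem_coe.mpr hx, rfl⟩
      have h1 := hp (ψ (g x)) (i x)
      have h2 : ‖ψ (g x) - i x‖ ≤ ‖g x - ψ (g x)‖ + ‖S (i x) - i x‖ := by
        have : ψ (g x) - i x = -(g x - ψ (g x)) + (S (i x) - i x) := by
          rw [hgF x hx]; abel
        rw [this]
        calc _ ≤ ‖-(g x - ψ (g x))‖ + ‖S (i x) - i x‖ := norm_add_le _ _
          _ = _ := by rw [norm_neg]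
      have h3 := (hψd _ (hgK x)).le
      have h4 := (hSclose _ hx').le
      have h5 : ‖ψ (g x) - i x‖ ≤ 2 * η := by linarith
      have h6 := mul_le_mul_of_nonneg_left h5 hL'
      have h7 := hret x
      calc dist (p (ψ (g x))) x ≤ dist (p (ψ (g x))) (p (i x)) + dist (p (i x)) x :=
            dist_triangle _ _ _
        _ ≤ c := by rw [hc]; nlinarith
  refine HasBAP.mono ?_ hmain
  have hfrac : (B + 2 * c) / θ ≤ 1 + (3 * c₁ + 2 * c₂) / θ := by
    rw [div_le_iff₀ hθ, add_mul, one_mul, div_mul_cancel₀ _ hθ.ne']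
    rw [hB, hc]
    nlinarith
  have : A + (B + 2 * c) / θ ≤ A + 1 + (3 * c₁ + 2 * c₂) / θ := by linarith
  exact this

/-- Nets in a normed space with the `lam`-BAP. -/
theorem hasBAP_of_net {lam θ δ : ℝ} (hX : HasBAP lam X) (hθ : 0 < θ) (hδ : 0 ≤ δ)
    (N : Set X) (o : N) (hsep : ∀ x ∈ N, ∀ y ∈ N, x ≠ y → θ ≤ ‖x - y‖)
    (hdense : ∀ u : X, ∃ x ∈ N, ‖u - x‖ ≤ δ) :
    HasBAP (2 * lam + 1 + 8 * δ / θ) (FreeSpace N o) := by
  classical
  choose q hqN hqd using hdense
  have := hasBAP_of_coarse_retract (M := N) (o := o) (lam := lam) (θ := θ) (L := 1) (L' := 1)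
    (c₁ := 2 * δ) (c₂ := δ) hX hθ
    (fun x y hxy => by
      rw [Subtype.dist_eq, dist_eq_norm]
      exact hsep x x.2 y y.2 (fun h => hxy (Subtype.ext h)))
    zero_le_one zero_le_one (by positivity) hδ
    (fun x => (x : X)) (fun u => ⟨q u, hqN u⟩)
    (fun x y => by
      rw [Subtype.dist_eq, dist_eq_norm, one_mul])
    (fun u v => by
      rw [Subtype.dist_eq, dist_eq_norm, one_mul]
      have h1 := hqd u
      have h2 := hqd v
      have : q u - q v = -(u - q u) + (u - v) + (v - q v) := by abel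
      rw [this]
      calc _ ≤ ‖-(u - q u) + (u - v)‖ + ‖v - q v‖ := norm_add_le _ _
        _ ≤ ‖-(u - q u)‖ + ‖u - v‖ + ‖v - q v‖ := add_le_add_left (norm_add_le _ _) _
        _ = ‖u - q u‖ + ‖u - v‖ + ‖v - q v‖ := by rw [norm_neg]
        _ ≤ _ := by linarith)
    (fun x => by
      rw [Subtype.dist_eq, dist_eq_norm, norm_sub_rev]
      exact hqd x)
  refine HasBAP.mono (le_of_eq ?_) this
  ring

end Vale.Agent.Lib.P090
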